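import Vale.Agent.P272.K.AMP.NF.Defs
import Vale.Agent.P272.K.T4.BlockA

/-! # Block N1 of AMP-NF: the weighted weak identity -/

open scoped Manifold ContDiff ComplexOrder Topology
open Complex Set Filter MeasureTheory

set_option linter.all false

noncomputable section

namespace Vale.Agent.P272.K.AMP.NF

open INT (IsDensity intX part Part)
open T4

variable {n : ℕ} {X : Type*} [TopologicalSpace X] [ChartedSpace (Cm n) X]
  [T2Space X] [CompactSpace X] [IsManifold 𝓘(ℂ, Cm n) ω X]
  {g h : Chart n X → Cm n → Matrix (Fin n) (Fin n) ℂ} {χ : ℝ → ℝ} {ρ : X → ℝ}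

/-- weighted form of `T4.intX_weak_eq` -/
theorem intX_weak_eq_weighted (hg : IsKahler g) (hh : IsHermitian h)
    (hρ : SmoothFn (n := n) ρ) :
    intX (fun e z => ρ (e.symm z) * ((P1.Q2 (g e) (h e) z + 2 * Rl2 (g e) (h e) z) *
      (g e z).det.re)) = intX (Qd g h ρ) := by
  set P := part n X with hP
  have hgH : IsHermitian g := hg.toIsHermitian
  have hPρ : ∀ i, SmoothFn (n := n) (fun x => P.ρ i x * ρ x) := fun i =>
    INT.SmoothFn.mul (P.smooth i) hρ
  have hsupp : ∀ i, tsupport (fun x => P.ρ i x * ρ x) ⊆ (P.e i).source := fun i =>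
    INT.tsupport_mul_subset_left'.trans (P.supp i)
  have hsum : intX (fun e z => ∑ i : Fin P.N, Qd g h (fun x => P.ρ i x * ρ x) e z) =
      intX (Qd g h ρ) := by
    refine INT.intX_congr fun e x hx => ?_
    have h0 : ∑ i : Fin P.N, cHess (fun y => P.ρ i (e.symm y) * ρ (e.symm y)) (e x) =
        cHess (fun y => ρ (e.symm y)) (e x) := by
      rw [← cHess_sum]
      · have : (fun y => ∑ i : Fin P.N, P.ρ i (e.symm y) * ρ (e.symm y)) =
            fun y => ρ (e.symm y) := by
          funext y; rw [← Finset.sum_mul, P.sum, one_mul]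
        rw [this]
      · intro i _
        exact (hPρ i e x hx).of_le (by exact WithTop.coe_le_coe.2 le_top)
    unfold Qd
    rw [← Finset.sum_mul, Finset.sum_add_distrib, ← Finset.mul_sum]
    have h1 : ∑ i : Fin P.N, ((g e (e x))⁻¹ * cHess (fun y => P.ρ i (e.symm y) *
        ρ (e.symm y)) (e x)).trace.re
        = ((g e (e x))⁻¹ * cHess (fun y => ρ (e.symm y)) (e x)).trace.re := by
      rw [← Complex.re_sum, ← Matrix.trace_sum, ← Matrix.mul_sum, h0]
    have h2 : ∑ i : Fin P.N, ((g e (e x))⁻¹ * h e (e x) *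
        ((g e (e x))⁻¹ * cHess (fun y => P.ρ i (e.symm y) * ρ (e.symm y)) (e x))).trace.re =
        ((g e (e x))⁻¹ * h e (e x) *
        ((g e (e x))⁻¹ * cHess (fun y => ρ (e.symm y)) (e x))).trace.re := by
      rw [← Complex.re_sum, ← Matrix.trace_sum, ← Matrix.mul_sum, ← Matrix.mul_sum, h0]
    rw [h1, h2]
  have hi : ∀ i : Fin P.N, intX (Qd g h (fun x => P.ρ i x * ρ x)) =
      ∫ z in (P.e i).target, Qd g h (fun x => P.ρ i x * ρ x) (P.e i) z := by
    intro i
    refine INT.intX_of_support (isDensity_Qd hgH hh (hPρ i)) (P.mem i)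
      (isClosed_tsupport (fun x => P.ρ i x * ρ x)) (hsupp i) ?_
    intro e' x hx hxK
    have h1 : (fun y => P.ρ i (e'.symm y) * ρ (e'.symm y)) =ᶠ[𝓝 (e' x)] fun _ => 0 := by
      have h2 : ∀ᶠ y in 𝓝 x, P.ρ i y * ρ y = 0 := by
        filter_upwards [(isClosed_tsupport (fun x => P.ρ i x * ρ x)).isOpen_compl.mem_nhds hxK]
          with y hy
        exact image_eq_zero_of_notMem_tsupport (f := fun x => P.ρ i x * ρ x) hy
      have h3 : Tendsto e'.symm (𝓝 (e' x)) (𝓝 x) := by
        have := e'.continuousAt_symm (e'.map_source hx.2)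
        rw [ContinuousAt, e'.left_inv hx.2] at this
        exact this
      exact h3.eventually h2
    unfold Qd
    rw [cHess_congr h1, cHess_const]
    simp
  have hchart : ∀ i : Fin P.N,
      ∫ z in (P.e i).target, P.ρ i ((P.e i).symm z) * (ρ ((P.e i).symm z) *
        ((P1.Q2 (g (P.e i)) (h (P.e i)) z + 2 * Rl2 (g (P.e i)) (h (P.e i)) z) *
          (g (P.e i) z).det.re))
      = ∫ z in (P.e i).target, Qd g h (fun x => P.ρ i x * ρ x) (P.e i) z := by
    intro i
    have hmem := P.mem i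
    have hsm : ∀ z ∈ (P.e i).target, At (P.e i) ((P.e i).symm z) := fun z hz => At.of_target hmem hz
    have key := P1.weak_eq (P.e i).open_target (g := g (P.e i)) (h := h (P.e i))
      (ψ := cutZ (P.e i) (fun x => P.ρ i x * ρ x))
      (fun z hz a b => hgH.smooth_target hmem hz a b)
      (fun z hz a b => hh.smooth_target hmem hz a b)
      (fun z hz => hgH.posDef_target hmem hz) (fun z hz => hh.posDef_target hmem hz)
      (fun z hz a b l => by
        have := hg.closed (P.e i) _ (hsm z hz) a b l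
        rwa [(P.e i).right_inv hz] at this)
      (contDiff_cutZ hmem (hPρ i) (hsupp i)) (hasCompactSupport_cutZ (hsupp i))
      ((tsupport_cutZ (hsupp i)).trans (image_tsupport_subset (hsupp i)))
    have e1 : ∫ z in (P.e i).target, P.ρ i ((P.e i).symm z) * (ρ ((P.e i).symm z) *
        ((P1.Q2 (g (P.e i)) (h (P.e i)) z + 2 * Rl2 (g (P.e i)) (h (P.e i)) z) *
          (g (P.e i) z).det.re)) =
        ∫ z in (P.e i).target, cutZ (P.e i) (fun x => P.ρ i x * ρ x) z *
        ((P1.Q2 (g (P.e i)) (h (P.e i)) z + 2 * Rl2 (g (P.e i)) (h (P.e i)) z) *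
          (g (P.e i) z).det.re) := by
      refine setIntegral_congr_fun (P.e i).open_target.measurableSet fun z hz => ?_
      simp only [cutZ_of_mem hz]
      ring
    have e2 : ∫ z in (P.e i).target, Qd g h (fun x => P.ρ i x * ρ x) (P.e i) z =
        ∫ z in (P.e i).target, (((g (P.e i) z)⁻¹ * h (P.e i) z).trace.re *
          ((g (P.e i) z)⁻¹ * cHess (cutZ (P.e i) (fun x => P.ρ i x * ρ x)) z).trace.re +
          ((g (P.e i) z)⁻¹ * h (P.e i) z *
            ((g (P.e i) z)⁻¹ * cHess (cutZ (P.e i) (fun x => P.ρ i x * ρ x)) z)).trace.re) *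
          (g (P.e i) z).det.re := by
      refine setIntegral_congr_fun (P.e i).open_target.measurableSet fun z hz => ?_
      simp only [Qd, cHess_congr (cutZ_eventuallyEq (ρ := fun x => P.ρ i x * ρ x) hz)]
    rw [e1, e2]
    exact key
  calc intX (fun e z => ρ (e.symm z) * ((P1.Q2 (g e) (h e) z + 2 * Rl2 (g e) (h e) z) *
        (g e z).det.re))
      = ∑ i : Fin P.N, ∫ z in (P.e i).target, Qd g h (fun x => P.ρ i x * ρ x) (P.e i) z :=
        Finset.sum_congr rfl fun i _ => hchart i
    _ = ∑ i : Fin P.N, intX (Qd g h (fun x => P.ρ i x * ρ x)) :=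
        Finset.sum_congr rfl fun i _ => (hi i).symm
    _ = intX (fun e z => ∑ i : Fin P.N, Qd g h (fun x => P.ρ i x * ρ x) e z) :=
        (INT.intX_sum Finset.univ fun i _ => isDensity_Qd hgH hh (hPρ i)).symm
    _ = _ := hsum

/-- smooth functions are continuous in the charts -/
lemma contD_fn (hρ : SmoothFn (n := n) ρ) :
    ContD (X := X) (n := n) fun e z => ρ (e.symm z) := fun e x hx => (hρ e x hx).continuousAt

/-- **Block N1**: the weighted weak identity. -/
theorem n1 (n : ℕ) (X : Type) [TopologicalSpace X] [T2Space X] [CompactSpace X]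
    [ChartedSpace (Cm n) X] [IsManifold 𝓘(ℂ, Cm n) ω X] : N1 n X := by
  intro χ hχ
  refine ⟨c0 n χ, c0_pos n hχ, fun h hh g hg ρ hρ => ?_⟩
  have hc : 0 < c0 n χ := c0_pos n hχ
  have hm : Mom4 n χ (c0 n χ) := mom4_c0 hχ
  have hgH : IsHermitian g := hg.toIsHermitian
  have h1 := intX_weak_eq_weighted hg hh hρ
  have hPR : CTFun fun e z w => Pq g h e z w + Rq h e z w :=
    ((Pq_smTFun hgH hh).add (Rq_smTFun hh)).ctfun
  have kρ : ContD (X := X) (n := n) fun e z => ρ (e.symm z) := contD_fn hρ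
  have k1 : ContD fun e z => ρ (e.symm z) *
      (Eg χ g (fun e z w => Pq g h e z w + Rq h e z w) e z * dt g e z) :=
    kρ.mul (Eg_isDensity hχ hgH hPR).cont
  have k2 : ContD fun e z => ρ (e.symm z) * (Ml (g e) (h e) z * dt g e z) := by
    have h2 : ContD fun e z => ρ (e.symm z) * ((Rl2 (g e) (h e) z + Tr g h e z) * dt g e z) :=
      kρ.mul (((contD_Rl2 hgH hh).add (contD_Tr hgH hh)).mul (contD_dt hgH))
    intro e x hx
    refine (h2 e x hx).congr ?_
    have hs : ∀ᶠ z in 𝓝 (e x), z ∈ e.target := e.open_target.mem_nhds (e.map_source hx.2)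
    filter_upwards [hs] with z hz
    have hx' : At e (e.symm z) := At.of_target hx.1 hz
    have h3 := Ml_eq (h := h) hgH hx'
    rw [e.right_inv hz] at h3
    simp only [h3]
  have k3 : ContD fun e z => ρ (e.symm z) * (Tr g h e z ^ 1 * dt g e z) := by
    have h2 : ContD fun e z => ρ (e.symm z) * (Tr g h e z * dt g e z) :=
      kρ.mul ((contD_Tr hgH hh).mul (contD_dt hgH))
    simpa using h2
  have h2 : intX (fun e z => ρ (e.symm z) * ((P1.Q2 (g e) (h e) z + 2 * Rl2 (g e) (h e) z) *
      (g e z).det.re)) =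
      intX (fun e z => ((c0 n χ)⁻¹ * (ρ (e.symm z) *
          (Eg χ g (fun e z w => Pq g h e z w + Rq h e z w) e z * dt g e z)) +
        2 * (ρ (e.symm z) * (Ml (g e) (h e) z * dt g e z))) +
        (-2) * (ρ (e.symm z) * (Tr g h e z ^ 1 * dt g e z))) := by
    refine INT.intX_congr fun e x hx => ?_
    rw [Eg_Q2 hχ hm hgH hh hx, Ml_eq hgH hx]
    unfold dt
    field_simp
    ring
  have h3 : intX (fun e z => ((c0 n χ)⁻¹ * (ρ (e.symm z) *
          (Eg χ g (fun e z w => Pq g h e z w + Rq h e z w) e z * dt g e z)) +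
        2 * (ρ (e.symm z) * (Ml (g e) (h e) z * dt g e z))) +
        (-2) * (ρ (e.symm z) * (Tr g h e z ^ 1 * dt g e z))) =
      ((c0 n χ)⁻¹ * IP χ g h ρ + 2 * IM g h ρ) + (-2) * IT 1 g h ρ := by
    rw [intX_add' ((k1.const_mul (c0 n χ)⁻¹).add (k2.const_mul 2)) (k3.const_mul (-2)),
      intX_add' (k1.const_mul (c0 n χ)⁻¹) (k2.const_mul 2), INT.intX_const_mul,
      INT.intX_const_mul, INT.intX_const_mul]
    rfl
  rw [h2, h3] at h1
  rw [← h1]
  field_simp
  ring

end Vale.Agent.P272.K.AMP.NF
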